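import Vale.Agent.P042X.Final
import Vale.Agent.P042U.OddMain
import Vale.Agent.P042Y.SepG

namespace Vale.Agent.Results.P042.AllBest

open Vale.Agent.P042

theorem result (h : Polynomial ℤ) (hdeg : 2 ≤ h.natDegree) (hlead : 0 < h.leadingCoeff)
    (hint : ∀ q : ℕ, 1 ≤ q → ∃ t : ℤ, (q : ℤ) ∣ h.eval t) :
    (∃ c : ℝ, 0 < c ∧ ∃ C : ℝ, ∀ N : ℕ,
      (r h N : ℝ) ≤ C * N * Real.exp (-(c * √(Real.log N * Real.log (Real.log N))))) ∧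
    (((h.map (Int.castRingHom ℚ)).Separable ∨
        (∃ g : Polynomial ℤ, g ∣ h ∧ (∀ q : ℕ, 1 ≤ q → ∃ t : ℤ, (q : ℤ) ∣ g.eval t) ∧
          IsCoprime (g.map (Int.castRingHom ℚ)) (h.derivative.map (Int.castRingHom ℚ))) ∨
        (∃ t : ℤ, ∀ x : ℤ, h.eval (t + x) = -h.eval (t - x))) →
      ∃ c : ℝ, 0 < c ∧ ∃ C : ℝ, ∀ N : ℕ, (r h N : ℝ) ≤ C * (N : ℝ) ^ (1 - c)) := by
  refine ⟨Vale.Agent.P042X.fin_all h hdeg hlead hint, ?_⟩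
  rintro (hs | ⟨g, hg, hgi, hc⟩ | ⟨t, ht⟩)
  · exact Vale.Agent.P042Y.ps_separable h hdeg hlead hint hs
  · exact Vale.Agent.P042Y.ps_simple h hdeg hlead g hg hgi hc
  · exact Vale.Agent.P042U.ps_odd h hdeg hlead t ht

end Vale.Agent.Results.P042.AllBest
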