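import Vale.Agent.P042X.Final
import Vale.Agent.P042U.OddMain
import Vale.Agent.P042U.Quad

namespace Vale.Agent.Results.P042.AllBounds

open Vale.Agent.P042

theorem result (h : Polynomial ℤ) (hdeg : 2 ≤ h.natDegree) (hlead : 0 < h.leadingCoeff)
    (hint : ∀ q : ℕ, 1 ≤ q → ∃ t : ℤ, (q : ℤ) ∣ h.eval t) :
    (∃ c : ℝ, 0 < c ∧ ∃ C : ℝ, ∀ N : ℕ,
      (r h N : ℝ) ≤ C * N * Real.exp (-(c * √(Real.log N * Real.log (Real.log N))))) ∧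
    (((∃ t : ℤ, ∀ x : ℤ, h.eval (t + x) = -h.eval (t - x)) ∨
        (h.natDegree = 2 ∧ h.coeff 1 ^ 2 - 4 * h.coeff 2 * h.coeff 0 ≠ 0)) →
      ∃ c : ℝ, 0 < c ∧ ∃ C : ℝ, ∀ N : ℕ, (r h N : ℝ) ≤ C * (N : ℝ) ^ (1 - c)) := by
  refine ⟨Vale.Agent.P042X.fin_all h hdeg hlead hint, ?_⟩
  rintro (⟨t, ht⟩ | ⟨h2, hD⟩)
  · exact Vale.Agent.P042U.ps_odd h hdeg hlead t ht
  · exact Vale.Agent.P042U.ps_quad h h2 hlead hint hD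

end Vale.Agent.Results.P042.AllBounds
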