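import Vale.Agent.P042.Main

namespace Vale.Agent.Results.P042.SqLower

open Vale.Agent.P042

theorem result : ∃ c : ℝ, 0 < c ∧ ∀ N : ℕ, 1 ≤ N →
    c * (N : ℝ) ^ (0.7563 : ℝ) ≤ (r (Polynomial.X ^ 2) N : ℝ) := by
  have h := lower
  rwa [show (((7563 : ℕ) : ℝ) / (10000 : ℕ)) = 0.7563 by norm_num] at h

end Vale.Agent.Results.P042.SqLower
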